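import Mathlib

/-!
# P338: multitape Turing machines, integer multiplication and matrix transposition

The machine model of the problem file: a deterministic machine with a fixed finite number of
one-dimensional tapes (cells numbered `0, 1, 2, ...`, cell `0` is the leftmost cell), a fixed
finite alphabet containing the blank, the two bits and the separator, and a fixed finite set of
states.  At the start the input is written on the first tape (tape `0`), all heads are on the
leftmost cell, and all other tapes are blank.  Cost is the number of steps.
-/

namespace Vale.Agent.P338

/-- Tape symbols: the blank, the two bits, the separator, and finitely many further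
symbols `E` of the machine. -/
inductive Symb (E : Type) : Type
  | blank : Symb E
  | bit (b : Bool) : Symb E
  | sep : Symb E
  | extra (e : E) : Symb E

/-- Head moves. -/
inductive Move : Type
  | left : Move
  | stay : Move
  | right : Move

/-- Effect of a head move on the position; a head on the leftmost cell that is told to move
left stays there. -/
def Move.app : Move → ℕ → ℕ
  | Move.left, n => n - 1
  | Move.stay, n => n
  | Move.right, n => n + 1

/-- A deterministic multitape Turing machine with the tapes `0, ..., k`. -/
structure Machine : Type 1 where
  /-- the machine has `k + 1` tapes -/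
  k : ℕ
  /-- the designated output tape -/
  out : Fin (k + 1)
  /-- states -/
  Q : Type
  /-- there are finitely many states -/
  finQ : Finite Q
  /-- further tape symbols -/
  E : Type
  /-- there are finitely many symbols -/
  finE : Finite E
  /-- the start state -/
  start : Q
  /-- Transition table: given the state and the symbols under the heads, either halt (`none`)
  or go to a new state, write one symbol and make one move on each tape. -/
  δ : Q → (Fin (k + 1) → Symb E) → Option (Q × (Fin (k + 1) → Symb E × Move))

namespace Machine

variable (M : Machine)

/-- Configurations of a machine. -/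
structure Cfg (M : Machine) : Type where
  /-- current state -/
  state : M.Q
  /-- position of the head on each tape -/
  head : Fin (M.k + 1) → ℕ
  /-- contents of each tape -/
  tape : Fin (M.k + 1) → ℕ → Symb M.E

/-- One step; `none` if the machine halts. -/
def step (c : M.Cfg) : Option M.Cfg :=
  (M.δ c.state (fun i => c.tape i (c.head i))).map fun r =>
    { state := r.1
      head := fun i => (r.2 i).2.app (c.head i)
      tape := fun i => Function.update (c.tape i) (c.head i) (r.2 i).1 }

/-- A word written on the leftmost cells of a tape, followed by blanks. -/
def written {E : Type} (w : List (Symb E)) (j : ℕ) : Symb E :=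
  w.getD j Symb.blank

/-- The initial configuration on input `w`. -/
def init (w : List (Symb M.E)) : M.Cfg where
  state := M.start
  head := fun _ => 0
  tape := fun i => if i = 0 then written w else written []

/-- The configuration after `t` steps on input `w` (`none` if the machine has halted before). -/
def after (w : List (Symb M.E)) : ℕ → Option M.Cfg
  | 0 => some (M.init w)
  | t + 1 => (after w t).bind M.step

/-- On input `w` the machine makes exactly `t` steps and halts in configuration `c`. -/
def HaltsAt (w : List (Symb M.E)) (t : ℕ) (c : M.Cfg) : Prop :=
  M.after w t = some c ∧ M.step c = none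

/-- On input `w` the machine halts with the word `z` written on its output tape. -/
def Outputs (w : List (Symb M.E)) (z : List Bool) : Prop :=
  ∃ t c, M.HaltsAt w t c ∧ c.tape M.out = written (z.map Symb.bit)

/-- The number of steps made on input `w`. -/
noncomputable def runTime (w : List (Symb M.E)) : ℕ :=
  sInf {t | ∃ c, M.HaltsAt w t c}

end Machine

/-! ### Multiplication -/

/-- The value of a binary string, most significant bit first. -/
def val (x : List Bool) : ℕ := x.foldl (fun a b => 2 * a + b.toNat) 0

/-- The binary representation of `z`, most significant bit first, padded on the left to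
length `k`. -/
def bin (k z : ℕ) : List Bool := List.ofFn fun i : Fin k => z.testBit (k - 1 - i)

/-- The input `x#y`. -/
def mulInput {E : Type} (x y : List Bool) : List (Symb E) :=
  x.map Symb.bit ++ Symb.sep :: y.map Symb.bit

/-- The machine `A` multiplies: for every `n ≥ 1` and every input `x#y` with
`x, y ∈ {0,1}^n` it halts with `bin_{2n} (val x * val y)` on the output tape. -/
def Multiplies (A : Machine) : Prop :=
  ∀ n : ℕ, 1 ≤ n → ∀ x y : List Bool, x.length = n → y.length = n →
    A.Outputs (mulInput x y) (bin (2 * n) (val x * val y))

/-- `T_A(n)`: the worst-case running time of `A` over the inputs `x#y` with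
`x, y ∈ {0,1}^n`. -/
noncomputable def mulTime (A : Machine) (n : ℕ) : ℕ :=
  Finset.univ.sup fun p : (Fin n → Bool) × (Fin n → Bool) =>
    A.runTime (mulInput (List.ofFn p.1) (List.ofFn p.2))

/-! ### Transposition -/

/-- Transposition of an `n × n` bit matrix given row by row as the first `n * n` bits of `w`:
the bit in position `i * n + j` of the result is the bit in position `j * n + i` of `w`. -/
def transposeWord (n : ℕ) (w : List Bool) : List Bool :=
  List.ofFn fun p : Fin (n * n) => w.getD ((p : ℕ) % n * n + (p : ℕ) / n) false

/-- The machine `B` transposes square bit matrices: for every `n ≥ 1`, on input the `n * n` bits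
of an `n × n` matrix (row by row) it halts with the bits of the transposed matrix on the output
tape. -/
def Transposes (B : Machine) : Prop :=
  ∀ n : ℕ, 1 ≤ n → ∀ w : List Bool, w.length = n * n →
    B.Outputs (w.map Symb.bit) (transposeWord n w)

/-- The machine `B` transposes, for inputs of every length `N ≥ 1`: on input `w ∈ {0,1}^N` it
halts with the transpose of the `⌊√N⌋ × ⌊√N⌋` matrix that is stored in the first bits of `w`. -/
def TransposesAll (B : Machine) : Prop :=
  ∀ w : List Bool, w ≠ [] → B.Outputs (w.map Symb.bit) (transposeWord (Nat.sqrt w.length) w)

/-- The worst-case running time of `B` over the inputs `w ∈ {0,1}^N`. -/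
noncomputable def wordTime (B : Machine) (N : ℕ) : ℕ :=
  Finset.univ.sup fun w : Fin N → Bool => B.runTime ((List.ofFn w).map Symb.bit)

/-! ### The conjectures -/

/-- Q1 (Schönhage–Strassen 1971): every machine that multiplies has
`T_A(n) ≥ c_A n log n` for all large `n`. -/
def MultiplicationConjecture : Prop :=
  ∀ A : Machine, Multiplies A → ∃ c : ℝ, 0 < c ∧ ∃ N₀ : ℕ, 2 ≤ N₀ ∧
    ∀ n : ℕ, N₀ ≤ n → c * (n * Real.log n) ≤ mulTime A n

/-- Transposing `n × n` bit matrices takes `Ω(n² log n)` steps. -/
def TranspositionConjecture : Prop :=
  ∀ B : Machine, Transposes B → ∃ c : ℝ, 0 < c ∧ ∃ N₀ : ℕ, 2 ≤ N₀ ∧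
    ∀ n : ℕ, N₀ ≤ n → c * ((n : ℝ) ^ 2 * Real.log n) ≤ wordTime B (n * n)

/-- Transposing the `⌊√N⌋ × ⌊√N⌋` bit matrix stored in an input of length `N` takes
`Ω(N log N)` steps, for all large `N`. -/
def TranspositionConjectureAllLengths : Prop :=
  ∀ B : Machine, TransposesAll B → ∃ c : ℝ, 0 < c ∧ ∃ N₀ : ℕ, 2 ≤ N₀ ∧
    ∀ N : ℕ, N₀ ≤ N → c * (N * Real.log N) ≤ wordTime B N

end Vale.Agent.P338
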