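import Vale.Agent.P338.Lang
import Vale.Agent.P338.Defs

/-!
# From stack programs to tapes

Every stack is stored on a one-way infinite tape: cell `0` holds the bottom marker, cell `i+1` the
`i`-th symbol from the bottom, the head is on the top symbol (on the marker if the stack is empty).

The tape alphabet is `Symb (Option Γ)`: `extra none` is the bottom marker, `extra (some a)` is the
stack symbol `a`.
-/

namespace Vale.Agent.P338

variable {R Γ : Type}

/-- Tape symbols of the compiled machine. -/
abbrev TSym (Γ : Type) := Symb (Option Γ)

/-- bottom marker -/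
abbrev TSym.bot : TSym Γ := Symb.extra none
/-- a stack symbol -/
abbrev TSym.sy (a : Γ) : TSym Γ := Symb.extra (some a)

/-- Top symbol read off the tape. -/
def TSym.top : TSym Γ → Option Γ
  | Symb.extra (some a) => some a
  | _ => none

/-- Stack tapes. -/
structure Tapes (R Γ : Type) where
  head : R → ℕ
  cells : R → ℕ → TSym Γ

/-- Actions: what to write and how to move, for all tapes. -/
abbrev Act (R Γ : Type) := R → TSym Γ × Move

/-- The symbols under the heads. -/
def Tapes.read (T : Tapes R Γ) : R → TSym Γ := fun r => T.cells r (T.head r)

/-- Perform an action. -/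
def Tapes.perform (T : Tapes R Γ) (a : Act R Γ) : Tapes R Γ where
  head := fun r => (a r).2.app (T.head r)
  cells := fun r => Function.update (T.cells r) (T.head r) (a r).1

/-- Do nothing. -/
def Act.idle (t : R → TSym Γ) : Act R Γ := fun r => (t r, Move.stay)

/-- Operations as a finite type. -/
def Op.equiv (Γ : Type) : Op Γ ≃ (Unit ⊕ Γ) ⊕ (Unit ⊕ Γ) where
  toFun
    | .nop => .inl (.inl ())
    | .push a => .inl (.inr a)
    | .pop => .inr (.inl ())
    | .rep a => .inr (.inr a)
  invFun
    | .inl (.inl ()) => .nop
    | .inl (.inr a) => .push a
    | .inr (.inl ()) => .pop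
    | .inr (.inr a) => .rep a
  left_inv := by intro o; cases o <;> rfl
  right_inv := by rintro ((_ | _) | (_ | _)) <;> rfl

instance [Finite Γ] : Finite (Op Γ) := Finite.of_equiv _ (Op.equiv Γ).symm

/-- First step of an operation: what to write and how to move, given the symbol read. -/
def Op.fst : Op Γ → TSym Γ → TSym Γ × Move
  | .nop, t => (t, .stay)
  | .push _, t => (t, .right)
  | .pop, t => match t.top with
    | none => (t, .stay)
    | some _ => (.blank, .left)
  | .rep a, t => match t.top with
    | none => (t, .stay)
    | some _ => (.sy a, .stay)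

/-- Second step of an operation. -/
def Op.snd : Op Γ → TSym Γ → TSym Γ × Move
  | .push a, _ => (.sy a, .stay)
  | _, t => (t, .stay)

/-- Control states of a program. -/
def PS : Prog R Γ → Type
  | .act _ => Option (R → Op Γ)
  | .seq p q => PS p ⊕ PS q
  | .branch f => Option (Σ o, PS (f o))
  | .loop _ p => Option (PS p)

/-- Entry state. -/
def PS.start : (p : Prog R Γ) → PS p
  | .act _ => (none : Option (R → Op Γ))
  | .seq p _ => Sum.inl (PS.start p)
  | .branch f => (none : Option (Σ o, PS (f o)))
  | .loop _ p => (none : Option (PS p))

/-- There are finitely many control states. -/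
theorem PS.finite [Finite R] [Finite Γ] : (p : Prog R Γ) → Finite (PS p)
  | .act _ => inferInstanceAs (Finite (Option (R → Op Γ)))
  | .seq p q =>
    have := PS.finite p
    have := PS.finite q
    inferInstanceAs (Finite (PS p ⊕ PS q))
  | .branch f =>
    have := fun o => PS.finite (f o)
    inferInstanceAs (Finite (Option (Σ o, PS (f o))))
  | .loop _ p =>
    have := PS.finite p
    inferInstanceAs (Finite (Option (PS p)))

/-- Transition function of a program; first component `none` means exit. -/
def pstep : (p : Prog R Γ) → PS p → (R → TSym Γ) → Option (PS p) × Act R Γ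
  | .act f, none, t =>
    (some (some (f fun r => (t r).top)), fun r => (f (fun r => (t r).top) r).fst (t r))
  | .act _, some g, t => (none, fun r => (g r).snd (t r))
  | .seq p q, Sum.inl u, t =>
    match pstep p u t with
    | (some u', a) => (some (Sum.inl u'), a)
    | (none, a) => (some (Sum.inr (PS.start q)), a)
  | .seq _ q, Sum.inr v, t => ((pstep q v t).1.map Sum.inr, (pstep q v t).2)
  | .branch f, none, t =>
    (some (some ⟨fun r => (t r).top, PS.start (f fun r => (t r).top)⟩), Act.idle t)
  | .branch f, some ⟨o, u⟩, t =>
    ((pstep (f o) u t).1.map (fun v => some ⟨o, v⟩), (pstep (f o) u t).2)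
  | .loop c p, none, t =>
    if c (fun r => (t r).top) = true then (some (some (PS.start p)), Act.idle t)
    else (none, Act.idle t)
  | .loop _ p, some u, t =>
    match pstep p u t with
    | (some u', a) => (some (some u'), a)
    | (none, a) => (some none, a)

/-- `Exits p u T T' n`: from control state `u` and tapes `T` the program exits after exactly `n`
steps with tapes `T'`. -/
inductive Exits (p : Prog R Γ) : PS p → Tapes R Γ → Tapes R Γ → ℕ → Prop
  | last {u : PS p} {T : Tapes R Γ} {a : Act R Γ} :
      pstep p u T.read = (none, a) → Exits p u T (T.perform a) 1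
  | more {u u' : PS p} {T T' : Tapes R Γ} {a : Act R Γ} {n : ℕ} :
      pstep p u T.read = (some u', a) → Exits p u' (T.perform a) T' n → Exits p u T T' (n + 1)

theorem exits_inr {p q : Prog R Γ} {v : PS q} {T T' : Tapes R Γ} {n : ℕ}
    (h : Exits q v T T' n) : Exits (.seq p q) (Sum.inr v : PS p ⊕ PS q) T T' n := by
  induction h with
  | last h => exact Exits.last (by simp only [pstep, h]; rfl)
  | more h _ ih => exact Exits.more (by simp only [pstep, h]; rfl) ih

theorem exits_seq {p q : Prog R Γ} {u : PS p} {T T₁ T₂ : Tapes R Γ} {n m : ℕ}
    (h : Exits p u T T₁ n) (h' : Exits q (PS.start q) T₁ T₂ m) :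
    Exits (.seq p q) (Sum.inl u : PS p ⊕ PS q) T T₂ (n + m) := by
  induction h with
  | last h =>
    rw [add_comm]
    exact Exits.more (by simp only [pstep, h]) (exits_inr h')
  | more h _ ih =>
    rw [add_right_comm]
    exact Exits.more (by simp only [pstep, h]) (ih h')

theorem exits_branch {f : (R → Option Γ) → Prog R Γ} {o : R → Option Γ} {u : PS (f o)}
    {T T' : Tapes R Γ} {n : ℕ} (h : Exits (f o) u T T' n) :
    Exits (.branch f) (some ⟨o, u⟩ : Option (Σ o, PS (f o))) T T' n := by
  induction h with
  | last h => exact Exits.last (by simp only [pstep, h]; rfl)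
  | more h _ ih => exact Exits.more (by simp only [pstep, h]; rfl) ih

theorem exits_loop {c : (R → Option Γ) → Bool} {p : Prog R Γ} {u : PS p}
    {T T₁ T₂ : Tapes R Γ} {n m : ℕ} (h : Exits p u T T₁ n)
    (h' : Exits (.loop c p) (none : Option (PS p)) T₁ T₂ m) :
    Exits (.loop c p) (some u : Option (PS p)) T T₂ (n + m) := by
  induction h with
  | last h =>
    rw [add_comm]
    exact Exits.more (by simp only [pstep, h]) h'
  | more h _ ih =>
    rw [add_right_comm]
    exact Exits.more (by simp only [pstep, h]) (ih h')

/-- Tape contents of a stack. -/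
def encCells (l : List Γ) : ℕ → TSym Γ
  | 0 => .bot
  | n + 1 => match l.reverse[n]? with
    | some a => .sy a
    | none => .blank

/-- The tapes representing a store. -/
def enc (s : Store R Γ) : Tapes R Γ where
  head := fun r => (s r).length
  cells := fun r => encCells (s r)

theorem top_encCells (l : List Γ) : (encCells l l.length).top = l.head? := by
  cases l with
  | nil => rfl
  | cons a l => simp [encCells, TSym.top]

theorem enc_read_top (s : Store R Γ) : (fun r => ((enc s).read r).top) = s.tops :=
  funext fun r => top_encCells (s r)

theorem encCells_cons (a : Γ) (l : List Γ) :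
    encCells (a :: l) = Function.update (encCells l) (l.length + 1) (.sy a) := by
  funext n
  cases n with
  | zero => simp [encCells]
  | succ n =>
    simp only [encCells, List.reverse_cons, Function.update_apply]
    rcases lt_trichotomy n l.length with h | h | h
    · rw [List.getElem?_append_left (by simpa using h)]
      simp [h.ne]
    · subst h
      simp
    · rw [List.getElem?_eq_none (by simp; omega), List.getElem?_eq_none (by simp; omega)]
      simp [h.ne']

theorem encCells_length_succ (l : List Γ) : encCells l (l.length + 1) = .blank := by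
  simp [encCells]

theorem Tapes.ext' {T T' : Tapes R Γ} (h : ∀ r, T.head r = T'.head r)
    (h' : ∀ r, T.cells r = T'.cells r) : T = T' := by
  cases T; cases T'
  simp only [Tapes.mk.injEq]
  exact ⟨funext h, funext h'⟩

theorem perform_idle (T : Tapes R Γ) : T.perform (Act.idle T.read) = T := by
  apply Tapes.ext'
  · intro r; rfl
  · intro r
    simp [Tapes.perform, Act.idle, Tapes.read]

/-- One operation on one stack. -/
theorem op_correct (o : Op Γ) (l : List Γ) :
    let c := encCells l
    let h := l.length
    let a := o.fst (c h)
    let c' := Function.update c h a.1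
    let h' := a.2.app h
    let a' := o.snd (c' h')
    Function.update c' h' a'.1 = encCells (o.app l) ∧ a'.2.app h' = (o.app l).length := by
  cases o with
  | nop => simp [Op.fst, Op.snd, Op.app, Move.app]
  | push a => simp [Op.fst, Op.snd, Op.app, Move.app, encCells_cons]
  | pop =>
    cases l with
    | nil => simp [Op.fst, Op.snd, Op.app, Move.app, encCells, TSym.top]
    | cons b l =>
      have h := top_encCells (b :: l)
      rw [List.head?_cons] at h
      simp only [Op.fst, h]
      simp only [Op.snd, Op.app, Move.app, List.length_cons, Nat.add_sub_cancel, List.tail_cons,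
        and_true, Function.update_eq_self]
      rw [encCells_cons, Function.update_idem]
      rw [← encCells_length_succ l, Function.update_eq_self]
  | rep a =>
    cases l with
    | nil => simp [Op.fst, Op.snd, Op.app, Move.app, encCells, TSym.top]
    | cons b l =>
      have h := top_encCells (b :: l)
      rw [List.head?_cons] at h
      simp only [Op.fst, h]
      simp only [Op.snd, Op.app, Move.app, List.length_cons, and_true, Function.update_eq_self]
      rw [encCells_cons, encCells_cons, Function.update_idem]

/-- **Compilation**: a terminating run of a program is simulated on tapes. -/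
theorem compile_exits {p : Prog R Γ} {s s' : Store R Γ} {c : ℕ} (h : Runs p s s' c) :
    ∃ n ≤ 2 * c, Exits p (PS.start p) (enc s) (enc s') n := by
  induction h with
  | act f s =>
    refine ⟨2, by omega, ?_⟩
    have key : enc (fun r => (f s.tops r).app (s r)) =
        ((enc s).perform (fun r => (f s.tops r).fst ((enc s).read r))).perform
          (fun r => (f s.tops r).snd
            (((enc s).perform (fun r => (f s.tops r).fst ((enc s).read r))).read r)) := by
      apply Tapes.ext'
      · intro r
        exact (op_correct (f s.tops r) (s r)).2.symm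
      · intro r
        exact (op_correct (f s.tops r) (s r)).1.symm
    rw [key]
    refine Exits.more (p := (Prog.act f : Prog R Γ)) (u := (none : Option (R → Op Γ)))
      (u' := (some (f s.tops) : Option (R → Op Γ)))
      (a := fun r => (f s.tops r).fst ((enc s).read r)) ?_
      (Exits.last (p := (Prog.act f : Prog R Γ)) (u := (some (f s.tops) : Option (R → Op Γ))) rfl)
    simp only [pstep, enc_read_top]
  | seq _ _ ih₁ ih₂ =>
    obtain ⟨n, hn, h1⟩ := ih₁
    obtain ⟨m, hm, h2⟩ := ih₂
    exact ⟨n + m, by omega, exits_seq h1 h2⟩
  | @branch f s s' c _ ih =>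
    obtain ⟨n, hn, h1⟩ := ih
    refine ⟨n + 1, by omega, ?_⟩
    refine Exits.more (p := (Prog.branch f : Prog R Γ)) (u := (none : Option (Σ o, PS (f o))))
      (u' := (some ⟨s.tops, PS.start (f s.tops)⟩ : Option (Σ o, PS (f o))))
      (a := Act.idle (enc s).read) ?_ ?_
    · have key : ∀ o : R → Option Γ, o = s.tops →
          ((some (some ⟨o, PS.start (f o)⟩) : Option (Option (Σ o, PS (f o)))),
            Act.idle (enc s).read) =
          (some (some ⟨s.tops, PS.start (f s.tops)⟩), Act.idle (enc s).read) := by
        rintro o rfl; rfl
      exact key _ (enc_read_top s)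
    · rw [perform_idle]
      exact exits_branch h1
  | @loop_stop t p s hs =>
    refine ⟨1, by omega, ?_⟩
    have h := Exits.last (p := (Prog.loop t p : Prog R Γ)) (u := (none : Option (PS p)))
      (T := enc s) (a := Act.idle (enc s).read) (by simp [pstep, enc_read_top, hs])
    rwa [perform_idle] at h
  | @loop_step t p s s₁ s₂ c₁ c₂ hs _ _ ih₁ ih₂ =>
    obtain ⟨n, hn, h1⟩ := ih₁
    obtain ⟨m, hm, h2⟩ := ih₂
    refine ⟨n + m + 1, by omega, ?_⟩
    refine Exits.more (p := (Prog.loop t p : Prog R Γ)) (u := (none : Option (PS p)))
      (u' := (some (PS.start p) : Option (PS p)))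
      (a := Act.idle (enc s).read) (by simp [pstep, enc_read_top, hs]) ?_
    rw [perform_idle]
    exact exits_loop h1 h2
  | weaken _ hc ih =>
    obtain ⟨n, hn, h1⟩ := ih
    exact ⟨n, by omega, h1⟩

end Vale.Agent.P338
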