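import Mathlib

/-!
# List-level specification of the core operation (captain's file; frozen once posted)

All bit lists are LEAST significant bit first (head = bit 0).

Core operation with parameters `b` (a power of two), `K = 2b`, `K1, S ≤ K`, `V ≥ 1`, `O` blocks:
the stream `x(o,i,j,v)` (`o<O, i<K1, j<S, v<V`, each `x o i j v` a list of `b` bits), in
lexicographic order of `(o,i,j,v)`, is turned into the stream in the order `(o,j,i,v)`.

Slot = `E = 12 b` bits, group = `G = V*E` bits, row = `2K` groups, block = `3K+1` rows.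
-/

namespace Vale.Agent.P338

/-- value of a bit list, least significant bit first -/
def lval : List Bool → ℕ
  | [] => 0
  | a :: l => a.toNat + 2 * lval l

/-- the `w` low bits of `x`, least significant first -/
def lbits : ℕ → ℕ → List Bool
  | 0, _ => []
  | w + 1, x => (x % 2 == 1) :: lbits w (x / 2)

/-- `n` zero bits -/
def zer (n : ℕ) : List Bool := List.replicate n false

/-- concatenation of `f 0, f 1, ..., f (n-1)` -/
def cat (n : ℕ) (f : ℕ → List Bool) : List Bool := (List.range n).flatMap f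

/-- exponents are reduced modulo `2b` -/
def ex (b : ℕ) (e : ℤ) : ℕ := (e % (2 * (b : ℤ))).toNat

/-- kernel exponents `m(m+1)/2` -/
def exH (b m : ℕ) : ℕ := ex b ((m * (m + 1) / 2 : ℕ) : ℤ)

/-- first twiddle `-i(i-1)/2` -/
def ex1 (b i : ℕ) : ℕ := ex b (-((i * (i - 1) / 2 : ℕ) : ℤ))

/-- second twiddle `k(s-k)` -/
def ex2 (b k s : ℕ) : ℕ := ex b ((k : ℤ) * ((s : ℤ) - (k : ℤ)))

/-- third twiddle `-j(j+1)/2 - log2 (2b)` -/
def ex3 (b j : ℕ) : ℕ := ex b (-((j * (j + 1) / 2 : ℕ) : ℤ) - (Nat.log 2 (2 * b) : ℤ))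

/-- bits in a slot -/
def slotW (b : ℕ) : ℕ := 12 * b
/-- bits in a group -/
def groupW (b V : ℕ) : ℕ := V * slotW b
/-- bits in a row (`2K = 4b` groups) -/
def rowW (b V : ℕ) : ℕ := 4 * b * groupW b V
/-- rows in a block, `3K+1` with `K = 2b` -/
def blockR (b : ℕ) : ℕ := 6 * b + 1
/-- bits in a block -/
def blockW (b V : ℕ) : ℕ := blockR b * rowW b V

/-- pass 1, one slot: a payload `x` of `b` bits placed at offset `a ≤ 2b` in a slot -/
def slot1 (b a : ℕ) (x : List Bool) : List Bool := zer a ++ x ++ zer (2 * b - a) ++ zer (9 * b)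

/-- pass 1, row `i` of a block (`i < K1`) -/
def row1 (b S V i : ℕ) (x : ℕ → ℕ → List Bool) : List Bool :=
  zer (i * groupW b V) ++ (cat S fun j => cat V fun v => slot1 b (ex1 b i) (x j v)) ++
    zer ((4 * b - i - S) * groupW b V)

/-- pass 1, one block -/
def block1 (b K1 S V : ℕ) (x : ℕ → ℕ → ℕ → List Bool) : List Bool :=
  (cat K1 fun i => row1 b S V i (x i)) ++ zer ((blockR b - K1) * rowW b V)

/-- pass 1: the first operand of the first multiplication -/
def pass1 (b O K1 S V : ℕ) (x : ℕ → ℕ → ℕ → ℕ → List Bool) : List Bool :=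
  cat O fun o => block1 b K1 S V (x o)

/-- the kernel: second operand of both multiplications; `2K = 4b` rows -/
def kernelH (b V : ℕ) : List Bool :=
  cat (4 * b) fun m => zer (exH b m) ++ [true] ++ zer (rowW b V - 1 - exH b m)

/-- pass 2, one slot: a slot `y` of `12 b` bits (value `< 2^(6b)`) shifted by `a ≤ 2b` -/
def slot2 (b a : ℕ) (y : List Bool) : List Bool := zer a ++ y.take (10 * b) ++ zer (2 * b - a)

/-- pass 2, one block: `y r s v` = slot `v` of group `s` of row `r` (`r < 6b+1`) of the product;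
rows `K+k`, `k < K = 2b` are used. -/
def block2 (b V : ℕ) (y : ℕ → ℕ → ℕ → List Bool) : List Bool :=
  (cat (2 * b) fun k => cat (4 * b) fun s => cat V fun v => slot2 b (ex2 b k s) (y (2 * b + k) s v))
    ++ zer ((4 * b + 1) * rowW b V)

/-- pass 2: the first operand of the second multiplication -/
def pass2 (b O V : ℕ) (y : ℕ → ℕ → ℕ → ℕ → List Bool) : List Bool :=
  cat O fun o => block2 b V (y o)

/-- pass 3, one slot: shift by `a ≤ 2b`, reduce modulo `2^b+1`, give the `b` low bits -/
def slot3 (b a : ℕ) (y : List Bool) : List Bool :=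
  lbits b (lval (zer a ++ y ++ zer (2 * b - a)) % (2 ^ b + 1))

/-- pass 3, one block -/
def block3 (b K1 S V : ℕ) (y : ℕ → ℕ → ℕ → List Bool) : List Bool :=
  cat S fun j => cat K1 fun i => cat V fun v => slot3 b (ex3 b j) (y (2 * b + j) (j + i) v)

/-- pass 3: the result, in the order `(o,j,i,v)` -/
def pass3 (b O K1 S V : ℕ) (y : ℕ → ℕ → ℕ → ℕ → List Bool) : List Bool :=
  cat O fun o => block3 b K1 S V (y o)

/-- the stream of data `x(o,i,j,v)` -/
def dataS (O K1 S V : ℕ) (x : ℕ → ℕ → ℕ → ℕ → List Bool) : List Bool :=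
  cat O fun o => cat K1 fun i => cat S fun j => cat V fun v => x o i j v

/-- the stream of slots of a product: `y(o,r,s,v)`, `o<O, r<6b+1, s<4b, v<V`, each of `12b` bits -/
def slotS (b O V : ℕ) (y : ℕ → ℕ → ℕ → ℕ → List Bool) : List Bool :=
  cat O fun o => cat (blockR b) fun r => cat (4 * b) fun s => cat V fun v => y o r s v

/-- slot number `q` of a bit list -/
def nthSlot (b : ℕ) (P : List Bool) (q : ℕ) : List Bool := (P.drop (q * slotW b)).take (slotW b)

/-- the slots `y(o,r,s,v)` of the low part of a product `P` -/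
def slotsOf (b V : ℕ) (P : List Bool) (o r s v : ℕ) : List Bool :=
  nthSlot b P (((o * blockR b + r) * (4 * b) + s) * V + v)

/-- zero-fill to `m` bits -/
def fillTo (m : ℕ) (l : List Bool) : List Bool := l ++ zer (m - l.length)

/-- the product of two `m`-bit operands as a list of `2m` bits -/
def mulL (m : ℕ) (u v : List Bool) : List Bool := lbits (2 * m) (lval u * lval v)

/-- The whole core operation when both multiplications succeed. -/
def coreFast (m b O K1 S V : ℕ) (x : ℕ → ℕ → ℕ → ℕ → List Bool) : List Bool :=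
  let H := fillTo m (kernelH b V)
  let P1 := mulL m (fillTo m (pass1 b O K1 S V x)) H
  let P2 := mulL m (fillTo m (pass2 b O V (slotsOf b V P1))) H
  pass3 b O K1 S V (slotsOf b V P2)

end Vale.Agent.P338
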