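import Vale.Agent.P338.CoreSpecE

/-!
# List-level specification of variant D' (one shot, prime field), stage 2

`p` prime, `s = p - 1`, `om` a primitive root modulo `p`, `b` payload bits, `n = s*b`.
Data = `n*n` bits row by row; a word is `b` consecutive bits, `s` words per matrix row,
a big row = `b` matrix rows = `n` words (`w = r*s + d`, `r < b`, `d < s`), `s` big rows.
Slot = `2W` bits, row of slots = `n * 2W` bits; an operand = `s` rows of data and `s` zero rows.
The fast operation moves word column `w` down (cyclically) by `d = w mod s` big rows.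
-/

namespace Vale.Agent.P338.D

open Vale.Agent.P338

/-- power of `om` modulo `p` with an exponent modulo `s = p-1` -/
def pwm (p om : ℕ) (e : ℤ) : ℕ := om ^ (e % ((p : ℤ) - 1)).toNat % p

/-- first table `om^(i(i-1)/2)` -/
def T1 (p om i : ℕ) : ℕ := pwm p om ((i * (i - 1) / 2 : ℕ) : ℤ)
/-- first kernel `om^(-m(m+1)/2)` -/
def H1 (p om m : ℕ) : ℕ := pwm p om (-((m * (m + 1) / 2 : ℕ) : ℤ))
/-- second table `om^(k(d+1))` -/
def T2 (p om k d : ℕ) : ℕ := pwm p om ((k * (d + 1) : ℕ) : ℤ)
/-- second kernel `om^(m(m+1)/2)` -/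
def H2 (p om m : ℕ) : ℕ := pwm p om ((m * (m + 1) / 2 : ℕ) : ℤ)
/-- third table `-De * om^(-j(j+1)/2)`, `De = p / 2^(b+1)` -/
def T3 (p om b j : ℕ) : ℕ :=
  (p - 1) * (p / 2 ^ (b + 1)) * pwm p om (-((j * (j + 1) / 2 : ℕ) : ℤ)) % p

/-- the product of a number `t < 2^W` and the low `W` bits of `y`, as `2W` bits -/
def mulS (W t : ℕ) (y : List Bool) : List Bool := lbits (2 * W) (t * lval (y.take W))

/-- F1: words `x i w` (`i<s, w<n`) to the first operand -/
def f1 (W b p om : ℕ) (x : ℕ → ℕ → List Bool) : List Bool :=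
  (cat (p - 1) fun i => cat ((p - 1) * b) fun w => mulS W (T1 p om i) (true :: x i w)) ++
    zer ((p - 1) * ((p - 1) * b * (2 * W)))

/-- kernel with entries `h m`, `m < 2s` -/
def kernel (W b p : ℕ) (h : ℕ → ℕ) : List Bool :=
  cat (2 * (p - 1)) fun m => lbits W (h m) ++ zer ((p - 1) * b * (2 * W) - W)

/-- F2: slots `y r w` (`r < 2s`, rows `s+k` used), `w = r' * s + d` -/
def f2 (W b p om : ℕ) (y : ℕ → ℕ → List Bool) : List Bool :=
  (cat (p - 1) fun k => cat b fun w' => cat (p - 1) fun d =>
    mulS W (T2 p om k d) (y (p - 1 + k) (w' * (p - 1) + d))) ++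
    zer ((p - 1) * ((p - 1) * b * (2 * W)))

/-- third pass on one slot: times `T3`, times `mu = 2^W / p`, bits `W-b .. W-1` -/
def ext3 (W b p t : ℕ) (y : List Bool) : List Bool :=
  ((mulS W (2 ^ W / p) (mulS W t y)).drop (W - b)).take b

/-- F3: slots of the second product to words -/
def f3 (W b p om : ℕ) (y : ℕ → ℕ → List Bool) : List Bool :=
  cat (p - 1) fun j => cat ((p - 1) * b) fun w => ext3 W b p (T3 p om b j) (y (p - 1 + j) w)

/-- word `(i,w)` of a data list -/
def wordsOf (b p : ℕ) (X : List Bool) (i w : ℕ) : List Bool :=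
  (X.drop ((i * ((p - 1) * b) + w) * b)).take b

/-- slot `(r,w)` of the low part of a product -/
def slotsOf (W b p : ℕ) (P : List Bool) (r w : ℕ) : List Bool :=
  (P.drop ((r * ((p - 1) * b) + w) * (2 * W))).take (2 * W)

/-- the fast operation -/
def fast (m W b p om : ℕ) (X : List Bool) : List Bool :=
  let P1 := mulL m (fillTo m (f1 W b p om (wordsOf b p X))) (fillTo m (kernel W b p (H1 p om)))
  let P2 := mulL m (fillTo m (f2 W b p om (slotsOf W b p P1))) (fillTo m (kernel W b p (H2 p om)))
  f3 W b p om (slotsOf W b p P2)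

/-- reference: column `c` of the `n × n` matrix moves down by `(c / b) * b` rows, `n = (p-1)*b` -/
def shearHi (b p : ℕ) (X : List Bool) : List Bool :=
  let n := (p - 1) * b
  cat n fun i => (List.range n).map fun c => X.getD (((i + n - (c / b) * b) % n) * n + c) false

end Vale.Agent.P338.D
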