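import Vale.Agent.P338.CoreSpec

/-!
# List-level specification, proposal E (shears)

`n = 2^L`, data = `n*n` bits, row by row, in a list (head = bit (0,0)).
Fast operation with parameter `mu`, `b = 2^mu`, `K = 2b`, `K*b ≤ n`, `Gr = n/(K*b)` groups.
word = `b` bits, big row = `n` words (`b` rows of the matrix), group = `K` big rows.
Slot = `13 b` bits, row of slots = `R = n*13b` bits, group of slots = `2K` rows.
-/

namespace Vale.Agent.P338.E

open Vale.Agent.P338

/-- exponent of the first kernel: `-m(m+1)/2` mod `2b` -/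
def eh (b m : ℕ) : ℕ := ex b (-((m * (m + 1) / 2 : ℕ) : ℤ))
/-- exponent of the second kernel: `m(m+1)/2` mod `2b` -/
def eh' (b m : ℕ) : ℕ := ex b ((m * (m + 1) / 2 : ℕ) : ℤ)
/-- first twiddle `i(i-1)/2` -/
def e1 (b i : ℕ) : ℕ := ex b ((i * (i - 1) / 2 : ℕ) : ℤ)
/-- second twiddle `k(d+1)` -/
def e2 (b k d : ℕ) : ℕ := ex b ((k * (d + 1) : ℕ) : ℤ)
/-- third twiddle `-j(j+1)/2 - log2 (2b)` -/
def e3 (b j : ℕ) : ℕ := ex b (-((j * (j + 1) / 2 : ℕ) : ℤ) - (Nat.log 2 (2 * b) : ℤ))

/-- bits in a row of slots -/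
def rowW (n b : ℕ) : ℕ := n * (13 * b)

/-- a word of `b` bits placed at offset `a ≤ 2b` in a slot of `13b` bits -/
def slot1 (b a : ℕ) (x : List Bool) : List Bool := zer a ++ x ++ zer (2 * b - a) ++ zer (10 * b)

/-- a slot shifted by `a ≤ 2b` (top bits dropped) -/
def slot2 (b a : ℕ) (y : List Bool) : List Bool := zer a ++ y.take (11 * b + (2 * b - a))

/-- a slot shifted by `a ≤ 2b`, then reduced modulo `2^b+1`, `b` low bits -/
def slot3 (b a : ℕ) (y : List Bool) : List Bool :=
  lbits b (lval (slot2 b a y) % (2 ^ b + 1))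

/-- F1: words `x g i w` (`g<Gr, i<K=2b, w<n`) to the first operand -/
def f1 (n b Gr : ℕ) (x : ℕ → ℕ → ℕ → List Bool) : List Bool :=
  cat Gr fun g => (cat (2 * b) fun i => cat n fun w => slot1 b (e1 b i) (x g i w)) ++
    zer (2 * b * rowW n b)

/-- kernels: `2K = 4b` rows, `e` the exponent function -/
def kernel (n b : ℕ) (e : ℕ → ℕ) : List Bool :=
  cat (4 * b) fun m => zer (e m) ++ [true] ++ zer (rowW n b - 1 - e m)

/-- F2: slots `y g r w` (`g<Gr, r<2K=4b, w<n`), rows `K+k` used, `w = w' * K + d` -/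
def f2 (n b Gr : ℕ) (y : ℕ → ℕ → ℕ → List Bool) : List Bool :=
  cat Gr fun g => (cat (2 * b) fun k => cat (n / (2 * b)) fun w' => cat (2 * b) fun d =>
    slot2 b (e2 b k d) (y g (2 * b + k) (w' * (2 * b) + d))) ++ zer (2 * b * rowW n b)

/-- F3: slots of the second product to words -/
def f3 (n b Gr : ℕ) (y : ℕ → ℕ → ℕ → List Bool) : List Bool :=
  cat Gr fun g => cat (2 * b) fun j => cat n fun w => slot3 b (e3 b j) (y g (2 * b + j) w)

/-- stream of words -/
def wordS (n b Gr : ℕ) (x : ℕ → ℕ → ℕ → List Bool) : List Bool :=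
  cat Gr fun g => cat (2 * b) fun i => cat n fun w => x g i w

/-- stream of slots of a product -/
def slotS (n b Gr : ℕ) (y : ℕ → ℕ → ℕ → List Bool) : List Bool :=
  cat Gr fun g => cat (4 * b) fun r => cat n fun w => y g r w

/-- word `(g,i,w)` of a data list -/
def wordsOf (n b : ℕ) (X : List Bool) (g i w : ℕ) : List Bool :=
  (X.drop (((g * (2 * b) + i) * n + w) * b)).take b

/-- slot `(g,r,w)` of the low part of a product -/
def slotsOf (n b : ℕ) (P : List Bool) (g r w : ℕ) : List Bool :=
  (P.drop (((g * (4 * b) + r) * n + w) * (13 * b))).take (13 * b)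

/-- rotation of a list to the right by `r` (`r ≤ length`) -/
def rotR (r : ℕ) (X : List Bool) : List Bool := X.drop (X.length - r) ++ X.take (X.length - r)

/-- alternate: `p` bits of `X`, then `q` bits of `Y`, both lists being consumed in parallel -/
def alt1 (p q : ℕ) (X Y : List Bool) (pos : ℕ) : List Bool :=
  (X.drop pos).take p ++ (Y.drop (pos + p)).take q

/-- bit operation `t`: column `s` with bit `t` of `s` equal to `1` moves down by `2^t` rows -/
def bitop (n t : ℕ) (X : List Bool) : List Bool :=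
  cat n fun i => cat (n / 2 ^ (t + 1)) fun p =>
    alt1 (2 ^ t) (2 ^ t) X (rotR (2 ^ t * n) X) (i * n + p * 2 ^ (t + 1))

/-- the carry fix: rows `j` of a group: words `d ≤ j` from `Y`, words `d > j` from the previous
group. -/
def fix (n b Gr : ℕ) (Y : List Bool) : List Bool :=
  cat Gr fun g => cat (2 * b) fun j => cat (n / (2 * b)) fun w' =>
    alt1 ((j + 1) * b) ((2 * b - 1 - j) * b) Y (rotR (2 * b * b * n) Y)
      ((((g * (2 * b) + j) * n) + w' * (2 * b)) * b)

/-- the fast operation (when both multiplications succeed), operands filled to `m` bits -/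
def fast (m n b : ℕ) (X : List Bool) : List Bool :=
  let Gr := n / (2 * b * b)
  let P1 := mulL m (fillTo m (f1 n b Gr (wordsOf n b X))) (fillTo m (kernel n b (eh b)))
  let P2 := mulL m (fillTo m (f2 n b Gr (slotsOf n b P1))) (fillTo m (kernel n b (eh' b)))
  fix n b Gr (f3 n b Gr (slotsOf n b P2))

/-- the reference: columns `s` of an `n × n` matrix move down (cyclically) by
`((s / 2^lo) mod 2^(hi-lo)) * 2^lo` rows -/
def shear (n lo hi : ℕ) (X : List Bool) : List Bool :=
  cat n fun i => (List.range n).map fun s =>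
    X.getD (((i + n - ((s / 2 ^ lo) % 2 ^ (hi - lo) * 2 ^ lo) % n) % n) * n + s) false

/-- first pass: row `i` rotated right by `i+1`, rows in reversed order -/
def rot1 (n : ℕ) (X : List Bool) : List Bool :=
  cat n fun r => rotR (n - r) ((X.drop ((n - 1 - r) * n)).take n)

/-- last pass: row `j` rotated left by `j+1` -/
def rot2 (n : ℕ) (X : List Bool) : List Bool :=
  cat n fun j => ((X.drop (j * n)).take n).drop (j + 1) ++ ((X.drop (j * n)).take n).take (j + 1)

end Vale.Agent.P338.E
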