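import Vale.Agent.P338.Lang

/-!
# Registers of the main program, and lifting of programs to a larger machine

All base programs (everything except the simulation of `A` and what calls it) are programs
`Prog Reg Bool`: a ruler is a stack of `false`s, a bit stream is a list of bits, head first.
`Prog.lift` transports them to `Prog (Reg ⊕ Y) (Bool ⊕ X)`.
-/

namespace Vale.Agent.P338

/-- The registers (stacks) of the base programs. -/
inductive Reg : Type
  /- interfaces: data stream, saved data, operands, product, failure flag, rulers `m`, epochs,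
  and the two partner stacks of the clock (empty outside the calls) -/
  | X | Xsave | cx | cy | cz | fl | rM | rE | rM' | rE'
  /- global rulers: `n = 2^L`, `L`, current `lam` -/
  | rn | rL | rLam
  /- rulers of the fast operation: `mu, b, K = 2b, 10b, 11b, n/K, Gr = n/(K b), rowW = 13 b n,
  rowW - 2b - 1, K*rowW, 2 b b n` -/
  | rMu | rB | rK | r10b | r11b | rnK | rG | rRW | rHZ | rKR | rRot
  /- rulers of a bit operation: `t, 2^t, 2^t * n` -/
  | rt | r2t | r2tn
  /- exponent pair (`|aA| + |aB| = 2b`) -/
  | aA | aB
  /- temporaries of the passes and of the library (always empty between procedures) -/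
  | t0 | t1 | t2 | t3 | t4 | t5 | t6 | t7 | t8 | t9
  | t10 | t11 | t12 | t13 | t14 | t15 | t16 | t17 | t18 | t19
  /- registers of the outer level: input (reversed), output, `N`, `n0 = isqrt N`, `2^L - n0` -/
  | inp | outp | rN | rn0 | rPad
  | u0 | u1 | u2 | u3 | u4 | u5 | u6 | u7 | u8 | u9
  deriving DecidableEq

instance : Finite Reg := by
  refine Finite.of_surjective (fun n : Fin 100 => Reg.ofNat n) fun r => ?_
  cases r <;> exact ⟨⟨_, by decide⟩, Reg.ofNat_ctorIdx _⟩

/-- Transport an operation along a map of symbols. -/
def Op.mapSym {Γ Δ : Type} (g : Γ → Δ) : Op Γ → Op Δ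
  | .nop => .nop
  | .push a => .push (g a)
  | .pop => .pop
  | .rep a => .rep (g a)

theorem Op.app_mapSym {Γ Δ : Type} (g : Γ → Δ) (o : Op Γ) (l : List Γ) :
    (o.mapSym g).app (l.map g) = (o.app l).map g := by
  cases o <;> cases l <;> simp [Op.mapSym, Op.app]

section lift

variable {R Y Γ Z : Type}

/-- The tops seen by the base program. -/
def baseTops (t : R ⊕ Y → Option (Γ ⊕ Z)) : R → Option Γ := fun r =>
  (t (Sum.inl r)).bind Sum.getLeft?

/-- Lift a program to more registers and more symbols. -/
def Prog.lift (Y Z : Type) : Prog R Γ → Prog (R ⊕ Y) (Γ ⊕ Z)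
  | .act f => .act fun t r =>
      match r with
      | Sum.inl r => (f (baseTops t) r).mapSym Sum.inl
      | Sum.inr _ => .nop
  | .seq p q => .seq (p.lift Y Z) (q.lift Y Z)
  | .branch f => .branch fun t => (f (baseTops t)).lift Y Z
  | .loop c p => .loop (fun t => c (baseTops t)) (p.lift Y Z)

/-- The store of the larger machine made of a base store and the contents of the other stacks. -/
def liftStore (s : Store R Γ) (u : Y → List (Γ ⊕ Z)) : Store (R ⊕ Y) (Γ ⊕ Z)
  | Sum.inl r => (s r).map Sum.inl
  | Sum.inr y => u y

theorem baseTops_liftStore (s : Store R Γ) (u : Y → List (Γ ⊕ Z)) :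
    baseTops (liftStore s u).tops = s.tops := by
  funext r
  simp only [baseTops, Store.tops, liftStore]
  cases s r <;> simp

/-- Lifting preserves runs and does not touch the other stacks. -/
theorem Runs.lift {p : Prog R Γ} {s s' : Store R Γ} {c : ℕ} (h : Runs p s s' c)
    (u : Y → List (Γ ⊕ Z)) :
    Runs (p.lift Y Z) (liftStore s u) (liftStore s' u) c := by
  induction h with
  | act f s =>
    refine (Runs.act _ _).conv ?_ le_rfl
    funext r
    cases r with
    | inl r =>
      simp only [baseTops_liftStore]
      exact Op.app_mapSym _ _ _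
    | inr y => rfl
  | seq _ _ ih1 ih2 => exact ih1.seq ih2
  | branch _ ih =>
    refine Runs.branch ?_
    simpa only [baseTops_liftStore] using ih
  | loop_stop h =>
    exact Runs.loop_stop (by simpa only [baseTops_liftStore] using h)
  | loop_step h _ _ ih1 ih2 =>
    exact Runs.loop_step (by simpa only [baseTops_liftStore] using h) ih1 ih2
  | weaken _ hc ih => exact ih.weaken hc

end lift

end Vale.Agent.P338
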