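import Mathlib

/-!
# A small structured language on stacks

`Prog R Γ` : structured programs over a family of stacks indexed by `R`, holding symbols of `Γ`.
`Store R Γ` : contents of the stacks (head of the list = top of the stack).
`Runs p s s' c` : `p` started on `s` terminates in `s'` with cost at most `c`.
-/

namespace Vale.Agent.P338

/-- What to do with one stack. -/
inductive Op (Γ : Type) : Type
  | nop : Op Γ
  | push (a : Γ) : Op Γ
  | pop : Op Γ
  | rep (a : Γ) : Op Γ

/-- Effect of an operation on a stack; `pop` and `rep` do nothing on the empty stack. -/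
def Op.app {Γ : Type} : Op Γ → List Γ → List Γ
  | .nop, l => l
  | .push a, l => a :: l
  | .pop, l => l.tail
  | .rep _, [] => []
  | .rep a, _ :: l => a :: l

/-- Structured programs over stacks indexed by `R` with symbols in `Γ`. -/
inductive Prog (R Γ : Type) : Type
  /-- one operation on every stack, depending on all the tops -/
  | act (f : (R → Option Γ) → R → Op Γ) : Prog R Γ
  | seq (p q : Prog R Γ) : Prog R Γ
  /-- case distinction on all the tops -/
  | branch (f : (R → Option Γ) → Prog R Γ) : Prog R Γ
  /-- repeat `p` as long as the tops satisfy `c` -/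
  | loop (c : (R → Option Γ) → Bool) (p : Prog R Γ) : Prog R Γ

/-- Contents of the stacks; the head of the list is the top of the stack. -/
abbrev Store (R Γ : Type) := R → List Γ

/-- The tops of all the stacks. -/
def Store.tops {R Γ : Type} (s : Store R Γ) : R → Option Γ := fun r => (s r).head?

/-- Big step semantics: `Runs p s s' c` says that `p` started on `s` ends in `s'` with cost
at most `c`. -/
inductive Runs {R Γ : Type} : Prog R Γ → Store R Γ → Store R Γ → ℕ → Prop
  | act (f : (R → Option Γ) → R → Op Γ) (s : Store R Γ) :
      Runs (.act f) s (fun r => (f s.tops r).app (s r)) 1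
  | seq {p q : Prog R Γ} {s s₁ s₂ : Store R Γ} {c₁ c₂ : ℕ} :
      Runs p s s₁ c₁ → Runs q s₁ s₂ c₂ → Runs (.seq p q) s s₂ (c₁ + c₂)
  | branch {f : (R → Option Γ) → Prog R Γ} {s s' : Store R Γ} {c : ℕ} :
      Runs (f s.tops) s s' c → Runs (.branch f) s s' (c + 1)
  | loop_stop {t : (R → Option Γ) → Bool} {p : Prog R Γ} {s : Store R Γ} :
      t s.tops = false → Runs (.loop t p) s s 1
  | loop_step {t : (R → Option Γ) → Bool} {p : Prog R Γ} {s s₁ s₂ : Store R Γ} {c₁ c₂ : ℕ} :
      t s.tops = true → Runs p s s₁ c₁ → Runs (.loop t p) s₁ s₂ c₂ →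
      Runs (.loop t p) s s₂ (c₁ + c₂ + 1)
  | weaken {p : Prog R Γ} {s s' : Store R Γ} {c c' : ℕ} :
      Runs p s s' c → c ≤ c' → Runs p s s' c'

namespace Prog

variable {R Γ : Type} [DecidableEq R]

/-- Do nothing. -/
def nop : Prog R Γ := .act fun _ _ => .nop

/-- Push `a` on stack `r`. -/
def push (r : R) (a : Γ) : Prog R Γ := .act fun _ => Function.update (fun _ => .nop) r (.push a)

/-- Pop stack `r` (nothing happens if it is empty). -/
def pop (r : R) : Prog R Γ := .act fun _ => Function.update (fun _ => .nop) r .pop

/-- Case distinction on the top of stack `r`. -/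
def peek (r : R) (f : Option Γ → Prog R Γ) : Prog R Γ := .branch fun t => f (t r)

/-- While stack `r` is nonempty do `p`. -/
def whileNE (r : R) (p : Prog R Γ) : Prog R Γ := .loop (fun t => (t r).isSome) p

/-- Move the top symbol of `r` to `q` (nothing happens if `r` is empty). -/
def mv (r q : R) : Prog R Γ := .act fun t =>
  match t r with
  | none => fun _ => .nop
  | some a => Function.update (Function.update (fun _ => .nop) r .pop) q (.push a)

/-- Move all of `r` to `q`, which reverses the order. -/
def flip (r q : R) : Prog R Γ := whileNE r (mv r q)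

/-- Empty stack `r`. -/
def clear (r : R) : Prog R Γ := whileNE r (pop r)

end Prog

namespace Runs

set_option linter.unusedSectionVars false

variable {R Γ : Type} {s s' s₁ s₂ : Store R Γ} {c c' c₁ c₂ : ℕ} {p q : Prog R Γ}

/-- Change the final store and the bound up to propositional equality / inequality. -/
theorem conv (h : Runs p s s₁ c) (hs : s₁ = s') (hc : c ≤ c') : Runs p s s' c' := by
  subst hs; exact h.weaken hc

/-- Sequential composition with a free bound. -/
theorem seq' (h₁ : Runs p s s₁ c₁) (h₂ : Runs q s₁ s₂ c₂) (hc : c₁ + c₂ ≤ c) :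
    Runs (.seq p q) s s₂ c :=
  (h₁.seq h₂).weaken hc

variable [DecidableEq R]

theorem nop (s : Store R Γ) : Runs .nop s s 1 :=
  (Runs.act _ s).conv (by funext r; rfl) le_rfl

theorem push (r : R) (a : Γ) (s : Store R Γ) :
    Runs (.push r a) s (Function.update s r (a :: s r)) 1 := by
  refine (Runs.act _ s).conv ?_ le_rfl
  funext r'
  by_cases h : r' = r
  · subst h; simp [Op.app]
  · simp [Op.app, h]

theorem pop (r : R) (s : Store R Γ) :
    Runs (.pop r) s (Function.update s r (s r).tail) 1 := by
  refine (Runs.act _ s).conv ?_ le_rfl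
  funext r'
  by_cases h : r' = r
  · subst h; simp [Op.app]
  · simp [Op.app, h]

theorem peek {r : R} {f : Option Γ → Prog R Γ} (h : Runs (f (s r).head?) s s' c) :
    Runs (.peek r f) s s' (c + 1) :=
  Runs.branch h

theorem whileNE_nil {r : R} (h : s r = []) : Runs (.whileNE r p) s s 1 :=
  Runs.loop_stop (by simp [Store.tops, h])

theorem whileNE_cons {r : R} {a : Γ} {l : List Γ} (h : s r = a :: l)
    (h₁ : Runs p s s₁ c₁) (h₂ : Runs (.whileNE r p) s₁ s₂ c₂) :
    Runs (.whileNE r p) s s₂ (c₁ + c₂ + 1) :=
  Runs.loop_step (by simp [Store.tops, h]) h₁ h₂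

theorem mv_cons {r q : R} (hrq : r ≠ q) {a : Γ} {l : List Γ} (h : s r = a :: l) :
    Runs (.mv r q) s (Function.update (Function.update s r l) q (a :: s q)) 1 := by
  refine (Runs.act _ s).conv ?_ le_rfl
  funext r'
  by_cases h1 : r' = q
  · subst h1; simp [Store.tops, h, Op.app]
  · by_cases h2 : r' = r
    · subst h2; simp [Store.tops, h, Op.app, h1]
    · simp [Store.tops, h, Op.app, h1, h2]

theorem flip {r q : R} (hrq : r ≠ q) (s : Store R Γ) :
    Runs (.flip r q) s (Function.update (Function.update s r []) q ((s r).reverse ++ s q))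
      (2 * (s r).length + 1) := by
  generalize hl : s r = l
  induction l generalizing s with
  | nil =>
    refine (whileNE_nil hl).conv ?_ (by simp)
    funext r'
    by_cases h1 : r' = q
    · subst h1; simp
    · by_cases h2 : r' = r
      · subst h2; simp [h1, hl]
      · simp [h1, h2]
  | cons a l ih =>
    have h1 := mv_cons hrq hl
    have h2 := ih (Function.update (Function.update s r l) q (a :: s q)) (by simp [hrq])
    refine (whileNE_cons hl h1 h2).conv ?_ (by simp only [List.length_cons]; omega)
    funext r'
    by_cases h3 : r' = q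
    · subst h3; simp
    · by_cases h4 : r' = r
      · subst h4; simp [h3]
      · simp [h3, h4]

theorem clear (r : R) (s : Store R Γ) :
    Runs (.clear r) s (Function.update s r []) (2 * (s r).length + 1) := by
  generalize hl : s r = l
  induction l generalizing s with
  | nil =>
    refine (whileNE_nil hl).conv ?_ (by simp)
    rw [← hl, Function.update_eq_self]
  | cons a l ih =>
    have h1 := Runs.pop r s
    rw [hl] at h1
    have h2 := ih (Function.update s r l) (by simp)
    refine (whileNE_cons hl h1 h2).conv ?_ (by simp only [List.length_cons]; omega)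
    simp

end Runs

end Vale.Agent.P338
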